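import Crest.Agent.Lib.PSD.Lazy
import Mathlib.Data.Nat.Bitwise

/-! # Lib/PSD/Pack : LDL test on a packed 5x5 matrix (25 lanes, row-major, biased), helper7. -/

set_option autoImplicit false
set_option linter.unusedVariables false

namespace Crest.Agent.PSD

/-- lanes `l` of width `W` below a top part `j` -/
def pk (W : ℕ) : List ℕ → ℕ → ℕ
  | [], j => j
  | a :: l, j => a + 2 ^ W * pk W l j

def pz (y : ℤ) : List ℤ → ℤ → ℤ
  | [], j => j
  | a :: l, j => a + y * pz y l j

/-- `X` has signed lanes `l` with bias `B` -/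
def PK (W B : ℕ) : List ℤ → ℕ → Prop
  | [], _ => True
  | a :: l, X => ((X % 2 ^ W : ℕ) : ℤ) = a + B ∧ PK W B l (X / 2 ^ W)

theorem land_split {W a b : ℕ} (ha : a < 2 ^ W) (hb : b < 2 ^ W) (x y : ℕ) :
    (a + 2 ^ W * x) &&& (b + 2 ^ W * y) = (a &&& b) + 2 ^ W * (x &&& y) := by
  apply Nat.eq_of_testBit_eq
  intro i
  have hab : a &&& b < 2 ^ W := lt_of_le_of_lt Nat.and_le_left ha
  rw [Nat.testBit_and, Nat.add_comm a, Nat.add_comm b, Nat.add_comm (a &&& b),
    Nat.testBit_two_pow_mul_add _ ha, Nat.testBit_two_pow_mul_add _ hb, Nat.testBit_two_pow_mul_add _ hab]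
  split_ifs <;> simp [Nat.testBit_and]

/-- mask with full lanes where `ms` is true -/
def msk (W : ℕ) : List Bool → ℕ
  | [] => 0
  | m :: ms => (if m then 2 ^ W - 1 else 0) + 2 ^ W * msk W ms

def sel (B : ℤ) : List ℤ → List Bool → List ℤ
  | a :: l, m :: ms => (if m then a + B else 0) :: sel B l ms
  | _, _ => []

theorem PK.land {W B : ℕ} : ∀ (ms : List Bool) (l : List ℤ) (X : ℕ), PK W B l X → ms.length ≤ l.length →
    ((Nat.land X (msk W ms) : ℕ) : ℤ) = pz (2 ^ W) (sel B l ms) 0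
  | [], l, X, _, _ => by
    have : Nat.land X (msk W []) = 0 := by show X &&& 0 = 0; simp
    rw [this]; cases l <;> simp [sel, pz]
  | m :: ms, [], X, _, h => by simp at h
  | m :: ms, a :: l, X, hX, h => by
    have ih := PK.land ms l (X / 2 ^ W) hX.2 (by simpa using h)
    have hp : 0 < 2 ^ W := by positivity
    have e : Nat.land X (msk W (m :: ms))
        = (X % 2 ^ W &&& (if m then 2 ^ W - 1 else 0)) + 2 ^ W * Nat.land (X / 2 ^ W) (msk W ms) := by
      show X &&& _ = _ + 2 ^ W * (_ &&& _)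
      rw [← land_split (Nat.mod_lt _ hp) (by split_ifs <;> omega), Nat.mod_add_div]; rfl
    rw [e]; push_cast; rw [ih]
    simp only [sel, pz]
    congr 1
    cases m
    · simp
    · simp only [if_true]
      rw [Nat.and_two_pow_sub_one_eq_mod, Nat.mod_mod]; exact hX.1

theorem PK.eq {W B : ℕ} : ∀ (l : List ℤ) (X : ℕ), PK W B l X →
    ∃ j : ℤ, (X : ℤ) = pz (2 ^ W) (l.map (· + (B : ℤ))) j
  | [], X, _ => ⟨X, rfl⟩
  | a :: l, X, h => by
    obtain ⟨j, hj⟩ := PK.eq l _ h.2
    refine ⟨j, ?_⟩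
    have := congrArg (fun n : ℕ => (n : ℤ)) (Nat.mod_add_div X (2 ^ W))
    simp only [Nat.cast_add, Nat.cast_mul, Nat.cast_pow, Nat.cast_ofNat] at this
    simp only [List.map, pz]
    rw [← hj, ← h.1]; linarith

theorem PK.of_eq {W B : ℕ} : ∀ (l : List ℤ) (X : ℕ) (j : ℤ), (∀ a ∈ l, 0 ≤ a + B ∧ a + B < 2 ^ W) →
    (X : ℤ) = pz (2 ^ W) (l.map (· + (B : ℤ))) j → PK W B l X
  | [], _, _, _, _ => trivial
  | a :: l, X, j, hb, h => by
    simp only [List.map, pz] at h
    have ha := hb a (by simp)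
    have hp : (0 : ℤ) < 2 ^ W := by positivity
    have h1 : (X : ℤ) % 2 ^ W = a + B := by
      rw [h, Int.add_mul_emod_self_left]; exact Int.emod_eq_of_lt ha.1 ha.2
    have h2 : (X : ℤ) / 2 ^ W = pz (2 ^ W) (l.map (· + (B : ℤ))) j := by
      rw [h, Int.add_mul_ediv_left _ _ hp.ne', Int.ediv_eq_zero_of_lt ha.1 ha.2, zero_add]
    refine ⟨by push_cast; exact h1, PK.of_eq l _ j (fun b hb' => hb b (by simp [hb'])) ?_⟩
    push_cast; exact h2

theorem PK.drop {W B : ℕ} : ∀ (k : ℕ) (l : List ℤ) (X : ℕ), PK W B l X →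
    PK W B (l.drop k) (Nat.shiftRight X (W * k))
  | 0, l, X, h => by simpa using h
  | k + 1, [], X, _ => trivial
  | k + 1, a :: l, X, h => by
    have := PK.drop k l _ h.2
    have e : Nat.shiftRight X (W * (k + 1)) = Nat.shiftRight (X / 2 ^ W) (W * k) := by
      show X >>> _ = _ >>> _
      rw [Nat.shiftRight_eq_div_pow, Nat.shiftRight_eq_div_pow, Nat.div_div_eq_div_mul, ← pow_add]
      congr 2; ring
    rw [e]; exact this

theorem PK.head {W B K X : ℕ} (hK : K = 2 ^ W - 1) {a : ℤ} {l : List ℤ} (h : PK W B (a :: l) X) :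
    ((Nat.land X K : ℕ) : ℤ) = a + B := by
  have : Nat.land X K = X % 2 ^ W := by rw [hK]; exact Nat.and_two_pow_sub_one_eq_mod _ _
  rw [this]; exact h.1

theorem sub_succ {n B q : ℕ} {a : ℤ} (h : (n : ℤ) = a + B) (hq : Nat.sub n B = q + 1) :
    a = ((Nat.succ q : ℕ) : ℤ) := by
  have : n - B = q + 1 := hq
  have h2 : n = q + 1 + B := by omega
  rw [h2] at h; push_cast at h ⊢; linarith

theorem sc_bd {B : ℕ} {p x y z : ℤ} (hp : |p| < B) (hx : |x| < B) (hy : |y| < B) (hz : |z| < B) :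
    |sc p x y z| < ((2 * B ^ 2 : ℕ) : ℤ) := by
  have esc : sc p x y z = p * x - y * z := rfl
  have h1 : |p * x| < (B : ℤ) ^ 2 := by
    rw [abs_mul, sq]; exact mul_lt_mul'' hp hx (abs_nonneg _) (abs_nonneg _)
  have h2 : |y * z| < (B : ℤ) ^ 2 := by
    rw [abs_mul, sq]; exact mul_lt_mul'' hy hz (abs_nonneg _) (abs_nonneg _)
  have := abs_sub (p * x) (y * z)
  rw [esc]; push_cast; linarith

theorem lane_ok {W B : ℕ} (hB : 2 * B ≤ 2 ^ W) {a : ℤ} (h : |a| < B) : 0 ≤ a + B ∧ a + B < 2 ^ W := by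
  have h1 := abs_lt.1 h
  have : (2 : ℤ) * B ≤ 2 ^ W := by exact_mod_cast hB
  constructor <;> linarith [h1.1, h1.2]

theorem zero_bd {B : ℕ} {a : ℤ} (h : |a| < B) : |(0 : ℤ)| < ((2 * B ^ 2 : ℕ) : ℤ) := by
  have := (abs_nonneg _).trans_lt h
  have hb0 : 0 < B := by exact_mod_cast this
  simp only [abs_zero]; positivity

/-- one elimination step -/
def stp (p X cX mR cR mC cC KK sh : ℕ) : ℕ :=
  Nat.shiftRight (Nat.add (Nat.mul p (Nat.add X cX))
    (Nat.sub KK (Nat.mul (Nat.add (Nat.land X mR) cR) (Nat.add (Nat.land X mC) cC)))) sh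

/-- sum of `y^t` over the true positions -/
def onz (W : ℕ) : List Bool → ℕ
  | [] => 0
  | m :: ms => (if m then 1 else 0) + 2 ^ W * onz W ms

theorem stp5_s {W B cX mR cR mC cC KK sh p X : ℕ} (hB : 2 * (2 * B ^ 2) ≤ 2 ^ W)
    (hcX : cX + B * onz W [true, true, true, true, true, true, true, true, true, true, true, true, true, true, true, true, true, true, true, true, true, true, true, true, true] = 2 ^ (W * 25))
    (hmR : mR = msk W [true, true, true, true, true]) (hcR : cR + B * onz W [true, true, true, true, true] = 2 ^ (W * 25))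
    (hmC : mC = msk W [true, false, false, false, false, true, false, false, false, false, true, false, false, false, false, true, false, false, false, false, true])
    (hcC : cC + B * onz W [true, false, false, false, false, true, false, false, false, false, true, false, false, false, false, true, false, false, false, false, true] = 2 ^ (W * 25))
    (hKK : KK = (mR + cR) * (mC + cC) / 2 ^ (W * 25) * 2 ^ (W * 25) + 2 ^ (W * 25)
      + 2 * B ^ 2 * onz W [true, true, true, true, true, true, true, true, true, true, true, true, true, true, true, true, true, true, true, true, true, true, true, true, true])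
    (hsh : sh = W * 6) {a11 a21 a22 a31 a32 a33 a41 a42 a43 a44 a51 a52 a53 a54 a55 : ℤ}
    (h11 : |a11| < B) (h21 : |a21| < B) (h22 : |a22| < B) (h31 : |a31| < B) (h32 : |a32| < B) (h33 : |a33| < B) (h41 : |a41| < B) (h42 : |a42| < B) (h43 : |a43| < B) (h44 : |a44| < B) (h51 : |a51| < B) (h52 : |a52| < B) (h53 : |a53| < B) (h54 : |a54| < B) (h55 : |a55| < B)
    (hX : PK W B [a11, a21, a31, a41, a51, a21, a22, a32, a42, a52, a31, a32, a33, a43, a53, a41, a42, a43, a44, a54, a51, a52, a53, a54, a55] X) (hp : a11 = (p : ℤ)) :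
    PK W (2 * B ^ 2) [sc a11 a22 a21 a21, sc a11 a32 a31 a21, sc a11 a42 a41 a21, sc a11 a52 a51 a21, 0, sc a11 a32 a31 a21, sc a11 a33 a31 a31, sc a11 a43 a41 a31, sc a11 a53 a51 a31, 0, sc a11 a42 a41 a21, sc a11 a43 a41 a31, sc a11 a44 a41 a41, sc a11 a54 a51 a41, 0, sc a11 a52 a51 a21, sc a11 a53 a51 a31, sc a11 a54 a51 a41, sc a11 a55 a51 a51] (stp p X cX mR cR mC cC KK sh) := by
  have hR := PK.land [true, true, true, true, true] _ X hX (by simp)
  have hC := PK.land [true, false, false, false, false, true, false, false, false, false, true, false, false, false, false, true, false, false, false, false, true] _ X hX (by simp)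
  obtain ⟨j, hj⟩ := PK.eq _ X hX
  rw [← hmR] at hR
  rw [← hmC] at hC
  have hle : (Nat.land X mR + cR) * (Nat.land X mC + cC) ≤ KK := by
    have h1 : (Nat.land X mR + cR) * (Nat.land X mC + cC) ≤ (mR + cR) * (mC + cC) :=
      Nat.mul_le_mul (Nat.add_le_add_right Nat.and_le_right _) (Nat.add_le_add_right Nat.and_le_right _)
    have h2 := Nat.lt_div_mul_add (a := (mR + cR) * (mC + cC)) (b := 2 ^ (W * 25)) (by positivity)
    omega
  have z0 : (0 : ℤ) ≤ 0 + ((2 * B ^ 2 : ℕ) : ℤ) ∧ 0 + ((2 * B ^ 2 : ℕ) : ℤ) < 2 ^ W := by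
    exact lane_ok hB (zero_bd h11)
  have b22 := lane_ok hB (sc_bd h11 h22 h21 h21)
  have b32 := lane_ok hB (sc_bd h11 h32 h31 h21)
  have b33 := lane_ok hB (sc_bd h11 h33 h31 h31)
  have b42 := lane_ok hB (sc_bd h11 h42 h41 h21)
  have b43 := lane_ok hB (sc_bd h11 h43 h41 h31)
  have b44 := lane_ok hB (sc_bd h11 h44 h41 h41)
  have b52 := lane_ok hB (sc_bd h11 h52 h51 h21)
  have b53 := lane_ok hB (sc_bd h11 h53 h51 h31)
  have b54 := lane_ok hB (sc_bd h11 h54 h51 h41)
  have b55 := lane_ok hB (sc_bd h11 h55 h51 h51)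
  have key : PK W (2 * B ^ 2) [0, 0, 0, 0, 0, 0, sc a11 a22 a21 a21, sc a11 a32 a31 a21, sc a11 a42 a41 a21, sc a11 a52 a51 a21, 0, sc a11 a32 a31 a21, sc a11 a33 a31 a31, sc a11 a43 a41 a31, sc a11 a53 a51 a31, 0, sc a11 a42 a41 a21, sc a11 a43 a41 a31, sc a11 a44 a41 a41, sc a11 a54 a51 a41, 0, sc a11 a52 a51 a21, sc a11 a53 a51 a31, sc a11 a54 a51 a41, sc a11 a55 a51 a51]
      (p * (X + cX) + (KK - (Nat.land X mR + cR) * (Nat.land X mC + cC))) := by
    generalize (mR + cR) * (mC + cC) / 2 ^ (W * 25) = Q at hKK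
    generalize Nat.land X mR = R at hR hle
    generalize Nat.land X mC = C at hC hle
    have e1 : (cX : ℤ) = (2 ^ W) ^ 25 - B * (onz W [true, true, true, true, true, true, true, true, true, true, true, true, true, true, true, true, true, true, true, true, true, true, true, true, true] : ℕ) := by
      rw [← pow_mul]; have := congrArg (fun n : ℕ => (n : ℤ)) hcX; push_cast at this ⊢; linarith
    have e2 : (cR : ℤ) = (2 ^ W) ^ 25 - B * (onz W [true, true, true, true, true] : ℕ) := by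
      rw [← pow_mul]; have := congrArg (fun n : ℕ => (n : ℤ)) hcR; push_cast at this ⊢; linarith
    have e3 : (cC : ℤ) = (2 ^ W) ^ 25 - B * (onz W [true, false, false, false, false, true, false, false, false, false, true, false, false, false, false, true, false, false, false, false, true] : ℕ) := by
      rw [← pow_mul]; have := congrArg (fun n : ℕ => (n : ℤ)) hcC; push_cast at this ⊢; linarith
    have e4 : (KK : ℤ) = Q * (2 ^ W) ^ 25 + (2 ^ W) ^ 25 + 2 * B ^ 2 * (onz W [true, true, true, true, true, true, true, true, true, true, true, true, true, true, true, true, true, true, true, true, true, true, true, true, true] : ℕ) := by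
      rw [← pow_mul, hKK]; push_cast; ring
    refine PK.of_eq _ _ (a11 * (j + 1) + Q + 1 - ((R : ℤ) + cR) - ((C : ℤ) + cC) + (2 ^ W) ^ 25) ?_ ?_
    · simp only [List.forall_mem_cons, List.not_mem_nil, false_imp_iff, implies_true, and_true]
      exact ⟨z0, z0, z0, z0, z0, z0, b22, b32, b42, b52, z0, b32, b33, b43, b53, z0, b42, b43, b44, b54, z0, b52, b53, b54, b55⟩
    · simp only [Nat.cast_add, Nat.cast_mul, Nat.cast_sub hle]
      rw [hj, e1, e2, e3, e4, hR, hC, ← hp]
      simp only [onz, pz, sel, List.map, sc, Int.sub_eq_add_neg, if_true, Bool.false_eq_true, if_false]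
      push_cast
      generalize (2 : ℤ) ^ W = y
      simp only [Int.mul_def, Int.sub]
      ring
  have := PK.drop 6 _ _ key
  rw [← hsh] at this
  exact this

theorem stp4_s {W B cX mR cR mC cC KK sh p X : ℕ} (hB : 2 * (2 * B ^ 2) ≤ 2 ^ W)
    (hcX : cX + B * onz W [true, true, true, true, true, true, true, true, true, true, true, true, true, true, true, true, true, true, true] = 2 ^ (W * 19))
    (hmR : mR = msk W [true, true, true, true]) (hcR : cR + B * onz W [true, true, true, true] = 2 ^ (W * 19))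
    (hmC : mC = msk W [true, false, false, false, false, true, false, false, false, false, true, false, false, false, false, true])
    (hcC : cC + B * onz W [true, false, false, false, false, true, false, false, false, false, true, false, false, false, false, true] = 2 ^ (W * 19))
    (hKK : KK = (mR + cR) * (mC + cC) / 2 ^ (W * 19) * 2 ^ (W * 19) + 2 ^ (W * 19)
      + 2 * B ^ 2 * onz W [true, true, true, true, true, true, true, true, true, true, true, true, true, true, true, true, true, true, true])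
    (hsh : sh = W * 6) {a11 a21 a22 a31 a32 a33 a41 a42 a43 a44 : ℤ}
    (h11 : |a11| < B) (h21 : |a21| < B) (h22 : |a22| < B) (h31 : |a31| < B) (h32 : |a32| < B) (h33 : |a33| < B) (h41 : |a41| < B) (h42 : |a42| < B) (h43 : |a43| < B) (h44 : |a44| < B)
    (hX : PK W B [a11, a21, a31, a41, 0, a21, a22, a32, a42, 0, a31, a32, a33, a43, 0, a41, a42, a43, a44] X) (hp : a11 = (p : ℤ)) :
    PK W (2 * B ^ 2) [sc a11 a22 a21 a21, sc a11 a32 a31 a21, sc a11 a42 a41 a21, 0, 0, sc a11 a32 a31 a21, sc a11 a33 a31 a31, sc a11 a43 a41 a31, 0, 0, sc a11 a42 a41 a21, sc a11 a43 a41 a31, sc a11 a44 a41 a41] (stp p X cX mR cR mC cC KK sh) := by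
  have hR := PK.land [true, true, true, true] _ X hX (by simp)
  have hC := PK.land [true, false, false, false, false, true, false, false, false, false, true, false, false, false, false, true] _ X hX (by simp)
  obtain ⟨j, hj⟩ := PK.eq _ X hX
  rw [← hmR] at hR
  rw [← hmC] at hC
  have hle : (Nat.land X mR + cR) * (Nat.land X mC + cC) ≤ KK := by
    have h1 : (Nat.land X mR + cR) * (Nat.land X mC + cC) ≤ (mR + cR) * (mC + cC) :=
      Nat.mul_le_mul (Nat.add_le_add_right Nat.and_le_right _) (Nat.add_le_add_right Nat.and_le_right _)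
    have h2 := Nat.lt_div_mul_add (a := (mR + cR) * (mC + cC)) (b := 2 ^ (W * 19)) (by positivity)
    omega
  have z0 : (0 : ℤ) ≤ 0 + ((2 * B ^ 2 : ℕ) : ℤ) ∧ 0 + ((2 * B ^ 2 : ℕ) : ℤ) < 2 ^ W := by
    exact lane_ok hB (zero_bd h11)
  have b22 := lane_ok hB (sc_bd h11 h22 h21 h21)
  have b32 := lane_ok hB (sc_bd h11 h32 h31 h21)
  have b33 := lane_ok hB (sc_bd h11 h33 h31 h31)
  have b42 := lane_ok hB (sc_bd h11 h42 h41 h21)
  have b43 := lane_ok hB (sc_bd h11 h43 h41 h31)
  have b44 := lane_ok hB (sc_bd h11 h44 h41 h41)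
  have key : PK W (2 * B ^ 2) [0, 0, 0, 0, 0, 0, sc a11 a22 a21 a21, sc a11 a32 a31 a21, sc a11 a42 a41 a21, 0, 0, sc a11 a32 a31 a21, sc a11 a33 a31 a31, sc a11 a43 a41 a31, 0, 0, sc a11 a42 a41 a21, sc a11 a43 a41 a31, sc a11 a44 a41 a41]
      (p * (X + cX) + (KK - (Nat.land X mR + cR) * (Nat.land X mC + cC))) := by
    generalize (mR + cR) * (mC + cC) / 2 ^ (W * 19) = Q at hKK
    generalize Nat.land X mR = R at hR hle
    generalize Nat.land X mC = C at hC hle
    have e1 : (cX : ℤ) = (2 ^ W) ^ 19 - B * (onz W [true, true, true, true, true, true, true, true, true, true, true, true, true, true, true, true, true, true, true] : ℕ) := by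
      rw [← pow_mul]; have := congrArg (fun n : ℕ => (n : ℤ)) hcX; push_cast at this ⊢; linarith
    have e2 : (cR : ℤ) = (2 ^ W) ^ 19 - B * (onz W [true, true, true, true] : ℕ) := by
      rw [← pow_mul]; have := congrArg (fun n : ℕ => (n : ℤ)) hcR; push_cast at this ⊢; linarith
    have e3 : (cC : ℤ) = (2 ^ W) ^ 19 - B * (onz W [true, false, false, false, false, true, false, false, false, false, true, false, false, false, false, true] : ℕ) := by
      rw [← pow_mul]; have := congrArg (fun n : ℕ => (n : ℤ)) hcC; push_cast at this ⊢; linarith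
    have e4 : (KK : ℤ) = Q * (2 ^ W) ^ 19 + (2 ^ W) ^ 19 + 2 * B ^ 2 * (onz W [true, true, true, true, true, true, true, true, true, true, true, true, true, true, true, true, true, true, true] : ℕ) := by
      rw [← pow_mul, hKK]; push_cast; ring
    refine PK.of_eq _ _ (a11 * (j + 1) + Q + 1 - ((R : ℤ) + cR) - ((C : ℤ) + cC) + (2 ^ W) ^ 19) ?_ ?_
    · simp only [List.forall_mem_cons, List.not_mem_nil, false_imp_iff, implies_true, and_true]
      exact ⟨z0, z0, z0, z0, z0, z0, b22, b32, b42, z0, z0, b32, b33, b43, z0, z0, b42, b43, b44⟩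
    · simp only [Nat.cast_add, Nat.cast_mul, Nat.cast_sub hle]
      rw [hj, e1, e2, e3, e4, hR, hC, ← hp]
      simp only [onz, pz, sel, List.map, sc, Int.sub_eq_add_neg, if_true, Bool.false_eq_true, if_false]
      push_cast
      generalize (2 : ℤ) ^ W = y
      simp only [Int.mul_def, Int.sub]
      ring
  have := PK.drop 6 _ _ key
  rw [← hsh] at this
  exact this

theorem stp3_s {W B cX mR cR mC cC KK sh p X : ℕ} (hB : 2 * (2 * B ^ 2) ≤ 2 ^ W)
    (hcX : cX + B * onz W [true, true, true, true, true, true, true, true, true, true, true, true, true] = 2 ^ (W * 13))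
    (hmR : mR = msk W [true, true, true]) (hcR : cR + B * onz W [true, true, true] = 2 ^ (W * 13))
    (hmC : mC = msk W [true, false, false, false, false, true, false, false, false, false, true])
    (hcC : cC + B * onz W [true, false, false, false, false, true, false, false, false, false, true] = 2 ^ (W * 13))
    (hKK : KK = (mR + cR) * (mC + cC) / 2 ^ (W * 13) * 2 ^ (W * 13) + 2 ^ (W * 13)
      + 2 * B ^ 2 * onz W [true, true, true, true, true, true, true, true, true, true, true, true, true])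
    (hsh : sh = W * 6) {a11 a21 a22 a31 a32 a33 : ℤ}
    (h11 : |a11| < B) (h21 : |a21| < B) (h22 : |a22| < B) (h31 : |a31| < B) (h32 : |a32| < B) (h33 : |a33| < B)
    (hX : PK W B [a11, a21, a31, 0, 0, a21, a22, a32, 0, 0, a31, a32, a33] X) (hp : a11 = (p : ℤ)) :
    PK W (2 * B ^ 2) [sc a11 a22 a21 a21, sc a11 a32 a31 a21, 0, 0, 0, sc a11 a32 a31 a21, sc a11 a33 a31 a31] (stp p X cX mR cR mC cC KK sh) := by
  have hR := PK.land [true, true, true] _ X hX (by simp)
  have hC := PK.land [true, false, false, false, false, true, false, false, false, false, true] _ X hX (by simp)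
  obtain ⟨j, hj⟩ := PK.eq _ X hX
  rw [← hmR] at hR
  rw [← hmC] at hC
  have hle : (Nat.land X mR + cR) * (Nat.land X mC + cC) ≤ KK := by
    have h1 : (Nat.land X mR + cR) * (Nat.land X mC + cC) ≤ (mR + cR) * (mC + cC) :=
      Nat.mul_le_mul (Nat.add_le_add_right Nat.and_le_right _) (Nat.add_le_add_right Nat.and_le_right _)
    have h2 := Nat.lt_div_mul_add (a := (mR + cR) * (mC + cC)) (b := 2 ^ (W * 13)) (by positivity)
    omega
  have z0 : (0 : ℤ) ≤ 0 + ((2 * B ^ 2 : ℕ) : ℤ) ∧ 0 + ((2 * B ^ 2 : ℕ) : ℤ) < 2 ^ W := by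
    exact lane_ok hB (zero_bd h11)
  have b22 := lane_ok hB (sc_bd h11 h22 h21 h21)
  have b32 := lane_ok hB (sc_bd h11 h32 h31 h21)
  have b33 := lane_ok hB (sc_bd h11 h33 h31 h31)
  have key : PK W (2 * B ^ 2) [0, 0, 0, 0, 0, 0, sc a11 a22 a21 a21, sc a11 a32 a31 a21, 0, 0, 0, sc a11 a32 a31 a21, sc a11 a33 a31 a31]
      (p * (X + cX) + (KK - (Nat.land X mR + cR) * (Nat.land X mC + cC))) := by
    generalize (mR + cR) * (mC + cC) / 2 ^ (W * 13) = Q at hKK
    generalize Nat.land X mR = R at hR hle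
    generalize Nat.land X mC = C at hC hle
    have e1 : (cX : ℤ) = (2 ^ W) ^ 13 - B * (onz W [true, true, true, true, true, true, true, true, true, true, true, true, true] : ℕ) := by
      rw [← pow_mul]; have := congrArg (fun n : ℕ => (n : ℤ)) hcX; push_cast at this ⊢; linarith
    have e2 : (cR : ℤ) = (2 ^ W) ^ 13 - B * (onz W [true, true, true] : ℕ) := by
      rw [← pow_mul]; have := congrArg (fun n : ℕ => (n : ℤ)) hcR; push_cast at this ⊢; linarith
    have e3 : (cC : ℤ) = (2 ^ W) ^ 13 - B * (onz W [true, false, false, false, false, true, false, false, false, false, true] : ℕ) := by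
      rw [← pow_mul]; have := congrArg (fun n : ℕ => (n : ℤ)) hcC; push_cast at this ⊢; linarith
    have e4 : (KK : ℤ) = Q * (2 ^ W) ^ 13 + (2 ^ W) ^ 13 + 2 * B ^ 2 * (onz W [true, true, true, true, true, true, true, true, true, true, true, true, true] : ℕ) := by
      rw [← pow_mul, hKK]; push_cast; ring
    refine PK.of_eq _ _ (a11 * (j + 1) + Q + 1 - ((R : ℤ) + cR) - ((C : ℤ) + cC) + (2 ^ W) ^ 13) ?_ ?_
    · simp only [List.forall_mem_cons, List.not_mem_nil, false_imp_iff, implies_true, and_true]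
      exact ⟨z0, z0, z0, z0, z0, z0, b22, b32, z0, z0, z0, b32, b33⟩
    · simp only [Nat.cast_add, Nat.cast_mul, Nat.cast_sub hle]
      rw [hj, e1, e2, e3, e4, hR, hC, ← hp]
      simp only [onz, pz, sel, List.map, sc, Int.sub_eq_add_neg, if_true, Bool.false_eq_true, if_false]
      push_cast
      generalize (2 : ℤ) ^ W = y
      simp only [Int.mul_def, Int.sub]
      ring
  have := PK.drop 6 _ _ key
  rw [← hsh] at this
  exact this

/-- last step on the 2x2 block -/
noncomputable def pd2 (W K B sh X : ℕ) : Bool :=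
  @Nat.rec (fun _ => Bool) false (fun y _ =>
    @Nat.rec (fun _ => Bool) false (fun z _ =>
      Nat.blt (Nat.mul z z)
        (Nat.mul (Nat.sub (Nat.land X K) B) (Nat.sub (Nat.land (Nat.shiftRight X sh) K) B)))
      (Nat.succ (Nat.add (Nat.sub y B) (Nat.sub B y))))
    (Nat.succ (Nat.land (Nat.shiftRight X W) K))

theorem pd2_s {W K B sh X : ℕ} (hK : K = 2 ^ W - 1) (hsh : sh = W * 6) {a11 a21 a22 : ℤ}
    (hX : PK W B [a11, a21, 0, 0, 0, a21, a22] X) (h : pd2 W K B sh X = true) : psd2 a11 a21 a22 = true := by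
  have h1 := hX.head hK
  have h2 := (PK.drop 1 _ _ hX).head hK
  have h3 := (PK.drop 6 _ _ hX).head hK
  rw [← hsh] at h3
  rw [Nat.mul_one] at h2
  have h' : Nat.blt (Nat.mul (Nat.add (Nat.sub (Nat.land (Nat.shiftRight X W) K) B)
      (Nat.sub B (Nat.land (Nat.shiftRight X W) K))) (Nat.add (Nat.sub (Nat.land (Nat.shiftRight X W) K) B)
      (Nat.sub B (Nat.land (Nat.shiftRight X W) K))))
      (Nat.mul (Nat.sub (Nat.land X K) B) (Nat.sub (Nat.land (Nat.shiftRight X sh) K) B)) = true := h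
  generalize Nat.land X K = n1 at h1 h'
  generalize Nat.land (Nat.shiftRight X W) K = n2 at h2 h'
  generalize Nat.land (Nat.shiftRight X sh) K = n3 at h3 h'
  rw [Nat.blt_eq] at h'
  have h4 : (n2 - B + (B - n2)) * (n2 - B + (B - n2)) < (n1 - B) * (n3 - B) := h'
  have h5 : 0 < (n1 - B) * (n3 - B) := by omega
  have p1 : 0 < n1 - B := Nat.pos_of_mul_pos_right h5
  have p3 : 0 < n3 - B := Nat.pos_of_mul_pos_left h5
  have e1 : a11 = ((n1 - B : ℕ) : ℤ) := by omega
  have e3 : a22 = ((n3 - B : ℕ) : ℤ) := by omega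
  have e2 : a21 * a21 = ((n2 - B + (B - n2) : ℕ) : ℤ) * ((n2 - B + (B - n2) : ℕ) : ℤ) := by
    rcases le_total n2 B with hh | hh
    · have : ((n2 - B + (B - n2) : ℕ) : ℤ) = -a21 := by omega
      rw [this]; ring
    · have : ((n2 - B + (B - n2) : ℕ) : ℤ) = a21 := by omega
      rw [this]
  have h6 : ((n2 - B + (B - n2) : ℕ) : ℤ) * ((n2 - B + (B - n2) : ℕ) : ℤ)
      < ((n1 - B : ℕ) : ℤ) * ((n3 - B : ℕ) : ℤ) := by exact_mod_cast h4
  rw [← e1, ← e3, ← e2] at h6
  rw [psd2, Bool.and_eq_true]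
  constructor
  · rw [e1]; show Nat.blt 0 (n1 - B) = true; rw [Nat.blt_eq]; exact p1
  · have : 0 ≤ sc a11 a22 a21 a21 := by
      show 0 ≤ a11 * a22 - a21 * a21
      linarith
    obtain ⟨n, hn⟩ := Int.eq_ofNat_of_zero_le this
    rw [hn]; rfl

theorem rec_pos {n : ℕ} {f : ℕ → Bool} (h : @Nat.rec (fun _ => Bool) false (fun q _ => f q) n = true) :
    ∃ q, n = q + 1 ∧ f q = true := by
  cases n with
  | zero => exact absurd h (by simp)
  | succ q => exact ⟨q, rfl, h⟩

theorem posI_succ {a : ℤ} {q : ℕ} (h : a = ((Nat.succ q : ℕ) : ℤ)) : posI a = true := by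
  rw [h]; show Nat.blt 0 (Nat.succ q) = true; rw [Nat.blt_eq]; exact Nat.succ_pos q

/-- packed LDL test; `X` must be a literal (forced) -/
noncomputable def pd5 (W K sh B5 cX5 mR5 cR5 mC5 cC5 KK5 B4 cX4 mR4 cR4 mC4 cC4 KK4 B3 cX3 mR3 cR3 mC3 cC3 KK3 B2 X : ℕ) : Bool :=
  @Nat.rec (fun _ => Bool) false (fun q5 _ =>
   @Nat.rec (fun _ => Bool) false (fun X4 _ =>
    @Nat.rec (fun _ => Bool) false (fun q4 _ =>
     @Nat.rec (fun _ => Bool) false (fun X3 _ =>
      @Nat.rec (fun _ => Bool) false (fun q3 _ =>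
       @Nat.rec (fun _ => Bool) false (fun X2 _ => pd2 W K B2 sh X2)
        (Nat.succ (Nat.shiftRight (Nat.add (Nat.mul (Nat.succ q3) (Nat.add X3 cX3))
        (Nat.sub KK3 (Nat.mul (Nat.add (Nat.land X3 mR3) cR3) (Nat.add (Nat.land X3 mC3) cC3)))) sh)))
       (Nat.sub (Nat.land X3 K) B3))
      (Nat.succ (Nat.shiftRight (Nat.add (Nat.mul (Nat.succ q4) (Nat.add X4 cX4))
        (Nat.sub KK4 (Nat.mul (Nat.add (Nat.land X4 mR4) cR4) (Nat.add (Nat.land X4 mC4) cC4)))) sh)))
     (Nat.sub (Nat.land X4 K) B4))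
    (Nat.succ (Nat.shiftRight (Nat.add (Nat.mul (Nat.succ q5) (Nat.add X cX5))
        (Nat.sub KK5 (Nat.mul (Nat.add (Nat.land X mR5) cR5) (Nat.add (Nat.land X mC5) cC5)))) sh)))
   (Nat.sub (Nat.land X K) B5)

/-- the constants of `pd5` -/
structure PdC (W K sh B5 cX5 mR5 cR5 mC5 cC5 KK5 B4 cX4 mR4 cR4 mC4 cC4 KK4 B3 cX3 mR3 cR3 mC3 cC3 KK3 B2 : ℕ) : Prop where
  hK : K = 2 ^ W - 1
  hsh : sh = W * 6
  hB4 : B4 = 2 * B5 ^ 2
  hB3 : B3 = 2 * B4 ^ 2
  hB2 : B2 = 2 * B3 ^ 2
  hb5 : 2 * (2 * B5 ^ 2) ≤ 2 ^ W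
  hcX5 : cX5 + B5 * onz W [true, true, true, true, true, true, true, true, true, true, true, true, true, true, true, true, true, true, true, true, true, true, true, true, true] = 2 ^ (W * 25)
  hmR5 : mR5 = msk W [true, true, true, true, true]
  hcR5 : cR5 + B5 * onz W [true, true, true, true, true] = 2 ^ (W * 25)
  hmC5 : mC5 = msk W [true, false, false, false, false, true, false, false, false, false, true, false, false, false, false, true, false, false, false, false, true]
  hcC5 : cC5 + B5 * onz W [true, false, false, false, false, true, false, false, false, false, true, false, false, false, false, true, false, false, false, false, true] = 2 ^ (W * 25)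
  hKK5 : KK5 = (mR5 + cR5) * (mC5 + cC5) / 2 ^ (W * 25) * 2 ^ (W * 25) + 2 ^ (W * 25)
      + 2 * B5 ^ 2 * onz W [true, true, true, true, true, true, true, true, true, true, true, true, true, true, true, true, true, true, true, true, true, true, true, true, true]
  hb4 : 2 * (2 * B4 ^ 2) ≤ 2 ^ W
  hcX4 : cX4 + B4 * onz W [true, true, true, true, true, true, true, true, true, true, true, true, true, true, true, true, true, true, true] = 2 ^ (W * 19)
  hmR4 : mR4 = msk W [true, true, true, true]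
  hcR4 : cR4 + B4 * onz W [true, true, true, true] = 2 ^ (W * 19)
  hmC4 : mC4 = msk W [true, false, false, false, false, true, false, false, false, false, true, false, false, false, false, true]
  hcC4 : cC4 + B4 * onz W [true, false, false, false, false, true, false, false, false, false, true, false, false, false, false, true] = 2 ^ (W * 19)
  hKK4 : KK4 = (mR4 + cR4) * (mC4 + cC4) / 2 ^ (W * 19) * 2 ^ (W * 19) + 2 ^ (W * 19)
      + 2 * B4 ^ 2 * onz W [true, true, true, true, true, true, true, true, true, true, true, true, true, true, true, true, true, true, true]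
  hb3 : 2 * (2 * B3 ^ 2) ≤ 2 ^ W
  hcX3 : cX3 + B3 * onz W [true, true, true, true, true, true, true, true, true, true, true, true, true] = 2 ^ (W * 13)
  hmR3 : mR3 = msk W [true, true, true]
  hcR3 : cR3 + B3 * onz W [true, true, true] = 2 ^ (W * 13)
  hmC3 : mC3 = msk W [true, false, false, false, false, true, false, false, false, false, true]
  hcC3 : cC3 + B3 * onz W [true, false, false, false, false, true, false, false, false, false, true] = 2 ^ (W * 13)
  hKK3 : KK3 = (mR3 + cR3) * (mC3 + cC3) / 2 ^ (W * 13) * 2 ^ (W * 13) + 2 ^ (W * 13)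
      + 2 * B3 ^ 2 * onz W [true, true, true, true, true, true, true, true, true, true, true, true, true]

theorem pd5_psd {W K sh B5 cX5 mR5 cR5 mC5 cC5 KK5 B4 cX4 mR4 cR4 mC4 cC4 KK4 B3 cX3 mR3 cR3 mC3 cC3 KK3 B2 X : ℕ} (c : PdC W K sh B5 cX5 mR5 cR5 mC5 cC5 KK5 B4 cX4 mR4 cR4 mC4 cC4 KK4 B3 cX3 mR3 cR3 mC3 cC3 KK3 B2)
    {a11 a21 a22 a31 a32 a33 a41 a42 a43 a44 a51 a52 a53 a54 a55 : ℤ}
    (h11 : |a11| < B5) (h21 : |a21| < B5) (h22 : |a22| < B5) (h31 : |a31| < B5) (h32 : |a32| < B5) (h33 : |a33| < B5) (h41 : |a41| < B5) (h42 : |a42| < B5) (h43 : |a43| < B5) (h44 : |a44| < B5) (h51 : |a51| < B5) (h52 : |a52| < B5) (h53 : |a53| < B5) (h54 : |a54| < B5) (h55 : |a55| < B5)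
    (hX : PK W B5 [a11, a21, a31, a41, a51, a21, a22, a32, a42, a52, a31, a32, a33, a43, a53, a41, a42, a43, a44, a54, a51, a52, a53, a54, a55] X)
    (h : pd5 W K sh B5 cX5 mR5 cR5 mC5 cC5 KK5 B4 cX4 mR4 cR4 mC4 cC4 KK4 B3 cX3 mR3 cR3 mC3 cC3 KK3 B2 X = true) : psd5 a11 a21 a22 a31 a32 a33 a41 a42 a43 a44 a51 a52 a53 a54 a55 = true := by
  obtain ⟨q5, e5, h⟩ := rec_pos h
  have p5 := sub_succ (hX.head c.hK) e5
  have X4 := stp5_s c.hb5 c.hcX5 c.hmR5 c.hcR5 c.hmC5 c.hcC5 c.hKK5 c.hsh h11 h21 h22 h31 h32 h33 h41 h42 h43 h44 h51 h52 h53 h54 h55 hX p5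
  have g11 := sc_bd h11 h22 h21 h21
  have g21 := sc_bd h11 h32 h31 h21
  have g22 := sc_bd h11 h33 h31 h31
  have g31 := sc_bd h11 h42 h41 h21
  have g32 := sc_bd h11 h43 h41 h31
  have g33 := sc_bd h11 h44 h41 h41
  have g41 := sc_bd h11 h52 h51 h21
  have g42 := sc_bd h11 h53 h51 h31
  have g43 := sc_bd h11 h54 h51 h41
  have g44 := sc_bd h11 h55 h51 h51
  rw [← c.hB4] at X4 g11 g21 g22 g31 g32 g33 g41 g42 g43 g44
  obtain ⟨q4, e4, h⟩ := rec_pos h
  have p4 := sub_succ (X4.head c.hK) e4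
  have X3 := stp4_s c.hb4 c.hcX4 c.hmR4 c.hcR4 c.hmC4 c.hcC4 c.hKK4 c.hsh g11 g21 g22 g31 g32 g33 g41 g42 g43 g44 X4 p4
  have k11 := sc_bd g11 g22 g21 g21
  have k21 := sc_bd g11 g32 g31 g21
  have k22 := sc_bd g11 g33 g31 g31
  have k31 := sc_bd g11 g42 g41 g21
  have k32 := sc_bd g11 g43 g41 g31
  have k33 := sc_bd g11 g44 g41 g41
  rw [← c.hB3] at X3 k11 k21 k22 k31 k32 k33
  obtain ⟨q3, e3, h⟩ := rec_pos h
  have p3 := sub_succ (X3.head c.hK) e3
  have X2 := stp3_s c.hb3 c.hcX3 c.hmR3 c.hcR3 c.hmC3 c.hcC3 c.hKK3 c.hsh k11 k21 k22 k31 k32 k33 X3 p3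
  rw [← c.hB2] at X2
  have r2 := pd2_s c.hK c.hsh X2 h
  rw [psd5, psd4, psd3, posI_succ p5, posI_succ p4, posI_succ p3, r2]; rfl

/-- soundness from an integer identity: `X = sum (a_ij + B) 2^(W (5i+j)) + 2^(25 W) j` -/
theorem pd5_s {W K sh B5 cX5 mR5 cR5 mC5 cC5 KK5 B4 cX4 mR4 cR4 mC4 cC4 KK4 B3 cX3 mR3 cR3 mC3 cC3 KK3 B2 X : ℕ} (c : PdC W K sh B5 cX5 mR5 cR5 mC5 cC5 KK5 B4 cX4 mR4 cR4 mC4 cC4 KK4 B3 cX3 mR3 cR3 mC3 cC3 KK3 B2) (hB : 2 * B5 ≤ 2 ^ W)
    {a11 a21 a22 a31 a32 a33 a41 a42 a43 a44 a51 a52 a53 a54 a55 j : ℤ}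
    (h11 : |a11| < B5) (h21 : |a21| < B5) (h22 : |a22| < B5) (h31 : |a31| < B5) (h32 : |a32| < B5) (h33 : |a33| < B5) (h41 : |a41| < B5) (h42 : |a42| < B5) (h43 : |a43| < B5) (h44 : |a44| < B5) (h51 : |a51| < B5) (h52 : |a52| < B5) (h53 : |a53| < B5) (h54 : |a54| < B5) (h55 : |a55| < B5)
    (hX : (X : ℤ) = pz (2 ^ W) ([a11, a21, a31, a41, a51, a21, a22, a32, a42, a52, a31, a32, a33, a43, a53, a41, a42, a43, a44, a54, a51, a52, a53, a54, a55].map (· + (B5 : ℤ))) j)
    (h : pd5 W K sh B5 cX5 mR5 cR5 mC5 cC5 KK5 B4 cX4 mR4 cR4 mC4 cC4 KK4 B3 cX3 mR3 cR3 mC3 cC3 KK3 B2 X = true) (x1 x2 x3 x4 x5 : ℝ) :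
    0 ≤ q5 a11 a21 a22 a31 a32 a33 a41 a42 a43 a44 a51 a52 a53 a54 a55 x1 x2 x3 x4 x5 := by
  refine psd5_s (pd5_psd c h11 h21 h22 h31 h32 h33 h41 h42 h43 h44 h51 h52 h53 h54 h55 (PK.of_eq _ _ j ?_ hX) h) x1 x2 x3 x4 x5
  simp only [List.forall_mem_cons, List.not_mem_nil, false_imp_iff, implies_true, and_true]
  exact ⟨lane_ok hB h11, lane_ok hB h21, lane_ok hB h31, lane_ok hB h41, lane_ok hB h51, lane_ok hB h21, lane_ok hB h22, lane_ok hB h32, lane_ok hB h42, lane_ok hB h52, lane_ok hB h31, lane_ok hB h32, lane_ok hB h33, lane_ok hB h43, lane_ok hB h53, lane_ok hB h41, lane_ok hB h42, lane_ok hB h43, lane_ok hB h44, lane_ok hB h54, lane_ok hB h51, lane_ok hB h52, lane_ok hB h53, lane_ok hB h54, lane_ok hB h55⟩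

end Crest.Agent.PSD
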