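import Crest.Agent.Lib.PSD.Trunc

/-! # Lib/PSD/Sgn : packed LDL test of 25 signed lanes modulo `2^(25 W)` (helper7). -/

set_option autoImplicit false
set_option linter.unusedVariables false

namespace Crest.Agent.PSD

theorem tr_bd2 {B s : ℕ} (h5 : 5 < B) {a : ℤ} (h : |a| < ((B * 2 ^ s : ℕ) : ℤ)) :
    |a / 2 ^ s| < ((2 * B : ℕ) : ℤ) ∧ |a / 2 ^ s - 5| < ((2 * B : ℕ) : ℤ) := by
  have hp : (0 : ℤ) < 2 ^ s := by positivity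
  have h1 := abs_lt.1 h
  push_cast at h1 ⊢
  have h5' : (5 : ℤ) < B := by exact_mod_cast h5
  have l1 : -(B : ℤ) ≤ a / 2 ^ s := by
    rw [Int.le_ediv_iff_mul_le hp]; linarith [h1.1]
  have l2 : a / 2 ^ s < (B : ℤ) := by
    rw [Int.ediv_lt_iff_lt_mul hp]; exact h1.2
  exact ⟨abs_lt.2 ⟨by linarith, by linarith⟩, abs_lt.2 ⟨by linarith, by linarith⟩⟩

/-- add the bias, keep the top bits of each lane, subtract `5` on the diagonal, test -/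
noncomputable def pdS (W K sh B5 cX5 mR5 cR5 mC5 cC5 KK5 B4 cX4 mR4 cR4 mC4 cC4 KK4 B3 cX3 mR3 cR3 mC3 cC3 KK3 B2 s b0 MT DA X : ℕ) : Bool :=
  @Nat.rec (fun _ => Bool) false (fun Y _ => pd5 W K sh B5 cX5 mR5 cR5 mC5 cC5 KK5 B4 cX4 mR4 cR4 mC4 cC4 KK4 B3 cX3 mR3 cR3 mC3 cC3 KK3 B2 Y)
    (Nat.succ (Nat.add (Nat.shiftRight (Nat.land (Nat.add X b0) MT) s) DA))

structure PsC (W B5 B s b0 MT DA : ℕ) : Prop where
  h5 : 5 < B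
  hB5 : B5 = 2 * B
  hB : 2 * (B * 2 ^ s) ≤ 2 ^ W
  hB' : 2 * B5 ≤ 2 ^ W
  hs : s ≤ W
  hb0 : b0 = rep W (B * 2 ^ s) 25
  hMT : MT = rep W (2 ^ W - 2 ^ s) 25
  hDA : DA + 5 * onz W [true, false, false, false, false, false, true, false, false, false, false, false, true, false, false, false, false, false, true, false, false, false, false, false, true] = rep W B 25

theorem pdS_s {W K sh B5 cX5 mR5 cR5 mC5 cC5 KK5 B4 cX4 mR4 cR4 mC4 cC4 KK4 B3 cX3 mR3 cR3 mC3 cC3 KK3 B2 B s b0 MT DA X : ℕ} (c : PdC W K sh B5 cX5 mR5 cR5 mC5 cC5 KK5 B4 cX4 mR4 cR4 mC4 cC4 KK4 B3 cX3 mR3 cR3 mC3 cC3 KK3 B2) (d : PsC W B5 B s b0 MT DA)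
    {a11 a21 a22 a31 a32 a33 a41 a42 a43 a44 a51 a52 a53 a54 a55 j : ℤ}
    (h11 : |a11| < ((B * 2 ^ s : ℕ) : ℤ)) (h21 : |a21| < ((B * 2 ^ s : ℕ) : ℤ)) (h22 : |a22| < ((B * 2 ^ s : ℕ) : ℤ)) (h31 : |a31| < ((B * 2 ^ s : ℕ) : ℤ)) (h32 : |a32| < ((B * 2 ^ s : ℕ) : ℤ)) (h33 : |a33| < ((B * 2 ^ s : ℕ) : ℤ)) (h41 : |a41| < ((B * 2 ^ s : ℕ) : ℤ)) (h42 : |a42| < ((B * 2 ^ s : ℕ) : ℤ)) (h43 : |a43| < ((B * 2 ^ s : ℕ) : ℤ)) (h44 : |a44| < ((B * 2 ^ s : ℕ) : ℤ)) (h51 : |a51| < ((B * 2 ^ s : ℕ) : ℤ)) (h52 : |a52| < ((B * 2 ^ s : ℕ) : ℤ)) (h53 : |a53| < ((B * 2 ^ s : ℕ) : ℤ)) (h54 : |a54| < ((B * 2 ^ s : ℕ) : ℤ)) (h55 : |a55| < ((B * 2 ^ s : ℕ) : ℤ))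
    (hX : (X : ℤ) = pz (2 ^ W) [a11, a21, a31, a41, a51, a21, a22, a32, a42, a52, a31, a32, a33, a43, a53, a41, a42, a43, a44, a54, a51, a52, a53, a54, a55] j)
    (h : pdS W K sh B5 cX5 mR5 cR5 mC5 cC5 KK5 B4 cX4 mR4 cR4 mC4 cC4 KK4 B3 cX3 mR3 cR3 mC3 cC3 KK3 B2 s b0 MT DA X = true) (x1 x2 x3 x4 x5 : ℝ) :
    0 ≤ q5 a11 a21 a22 a31 a32 a33 a41 a42 a43 a44 a51 a52 a53 a54 a55 x1 x2 x3 x4 x5 := by
  have hK : PK W (B * 2 ^ s) [a11, a21, a31, a41, a51, a21, a22, a32, a42, a52, a31, a32, a33, a43, a53, a41, a42, a43, a44, a54, a51, a52, a53, a54, a55] (Nat.add X b0) := by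
    refine PK.of_eq _ _ j ?_ ?_
    · simp only [List.forall_mem_cons, List.not_mem_nil, false_imp_iff, implies_true, and_true]
      exact ⟨lane_ok d.hB h11, lane_ok d.hB h21, lane_ok d.hB h31, lane_ok d.hB h41, lane_ok d.hB h51, lane_ok d.hB h21, lane_ok d.hB h22, lane_ok d.hB h32, lane_ok d.hB h42, lane_ok d.hB h52, lane_ok d.hB h31, lane_ok d.hB h32, lane_ok d.hB h33, lane_ok d.hB h43, lane_ok d.hB h53, lane_ok d.hB h41, lane_ok d.hB h42, lane_ok d.hB h43, lane_ok d.hB h44, lane_ok d.hB h54, lane_ok d.hB h51, lane_ok d.hB h52, lane_ok d.hB h53, lane_ok d.hB h54, lane_ok d.hB h55⟩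
    · have : Nat.add X b0 = X + b0 := rfl
      rw [this, Nat.cast_add, hX, d.hb0]
      generalize B * 2 ^ s = b
      simp only [rep, pz, List.map]
      push_cast
      generalize (2 : ℤ) ^ W = y
      ring
  have h1 := PK.hi d.hs _ _ hK
  have hl : ([a11, a21, a31, a41, a51, a21, a22, a32, a42, a52, a31, a32, a33, a43, a53, a41, a42, a43, a44, a54, a51, a52, a53, a54, a55] : List ℤ).length = 25 := rfl
  rw [hl, ← d.hMT] at h1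
  have h0 : pd5 W K sh B5 cX5 mR5 cR5 mC5 cC5 KK5 B4 cX4 mR4 cR4 mC4 cC4 KK4 B3 cX3 mR3 cR3 mC3 cC3 KK3 B2 (Nat.add (Nat.shiftRight (Nat.land (Nat.add X b0) MT) s) DA) = true := h
  generalize Nat.add X b0 = Z at h1 h0
  have hps : (0 : ℤ) < 2 ^ s := by positivity
  have h2 : ((Nat.shiftRight (Nat.land Z MT) s : ℕ) : ℤ)
      = pz (2 ^ W) (([a11, a21, a31, a41, a51, a21, a22, a32, a42, a52, a31, a32, a33, a43, a53, a41, a42, a43, a44, a54, a51, a52, a53, a54, a55] : List ℤ).map (fun a => a / 2 ^ s + (B : ℤ))) 0 := by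
    have : Nat.shiftRight (Nat.land Z MT) s = Nat.land Z MT / 2 ^ s := Nat.shiftRight_eq_div_pow _ _
    rw [this]; push_cast; rw [h1, Int.mul_ediv_cancel_left _ hps.ne']
  have hDA : (DA : ℤ) = (rep W B 25 : ℕ) - 5 * (onz W [true, false, false, false, false, false, true, false, false, false, false, false, true, false, false, false, false, false, true, false, false, false, false, false, true] : ℕ) := by
    have := congrArg (fun n : ℕ => (n : ℤ)) d.hDA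
    push_cast at this ⊢; linarith
  have h3 : ((Nat.add (Nat.shiftRight (Nat.land Z MT) s) DA : ℕ) : ℤ)
      = pz (2 ^ W) (([(a11 / 2 ^ s - 5), (a21 / 2 ^ s), (a31 / 2 ^ s), (a41 / 2 ^ s), (a51 / 2 ^ s), (a21 / 2 ^ s), (a22 / 2 ^ s - 5), (a32 / 2 ^ s), (a42 / 2 ^ s), (a52 / 2 ^ s), (a31 / 2 ^ s), (a32 / 2 ^ s), (a33 / 2 ^ s - 5), (a43 / 2 ^ s), (a53 / 2 ^ s), (a41 / 2 ^ s), (a42 / 2 ^ s), (a43 / 2 ^ s), (a44 / 2 ^ s - 5), (a54 / 2 ^ s), (a51 / 2 ^ s), (a52 / 2 ^ s), (a53 / 2 ^ s), (a54 / 2 ^ s), (a55 / 2 ^ s - 5)] : List ℤ).map (· + (B5 : ℤ))) 0 := by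
    have : Nat.add (Nat.shiftRight (Nat.land Z MT) s) DA = Nat.shiftRight (Nat.land Z MT) s + DA := rfl
    rw [this, Nat.cast_add, h2, hDA, d.hB5]
    simp only [onz, rep, pz, List.map, if_true, Bool.false_eq_true, if_false]
    push_cast
    generalize (2 : ℤ) ^ W = y
    ring
  have h7 := pd5_s c d.hB' (d.hB5 ▸ (tr_bd2 d.h5 h11).2) (d.hB5 ▸ (tr_bd2 d.h5 h21).1) (d.hB5 ▸ (tr_bd2 d.h5 h22).2) (d.hB5 ▸ (tr_bd2 d.h5 h31).1) (d.hB5 ▸ (tr_bd2 d.h5 h32).1) (d.hB5 ▸ (tr_bd2 d.h5 h33).2) (d.hB5 ▸ (tr_bd2 d.h5 h41).1) (d.hB5 ▸ (tr_bd2 d.h5 h42).1) (d.hB5 ▸ (tr_bd2 d.h5 h43).1) (d.hB5 ▸ (tr_bd2 d.h5 h44).2) (d.hB5 ▸ (tr_bd2 d.h5 h51).1) (d.hB5 ▸ (tr_bd2 d.h5 h52).1) (d.hB5 ▸ (tr_bd2 d.h5 h53).1) (d.hB5 ▸ (tr_bd2 d.h5 h54).1) (d.hB5 ▸ (tr_bd2 d.h5 h55).2)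
    h3 h0 x1 x2 x3 x4 x5
  have h8 := q5_rad (tr_err s a11) (tr_err s a21) (tr_err s a22) (tr_err s a31) (tr_err s a32) (tr_err s a33) (tr_err s a41) (tr_err s a42) (tr_err s a43) (tr_err s a44) (tr_err s a51) (tr_err s a52) (tr_err s a53) (tr_err s a54) (tr_err s a55) x1 x2 x3 x4 x5
  have h9 := mul_nonneg (show (0 : ℝ) ≤ 2 ^ s by positivity) h7
  simp only [Int.cast_sub, Int.cast_ofNat] at h9
  unfold q5 at h8 h9 ⊢
  linarith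

end Crest.Agent.PSD
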