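import Crest.Agent.Lib.PSD.Pack

/-! # Lib/PSD/Trunc : packed LDL test after truncation of wide exact lanes (helper7). -/

set_option autoImplicit false
set_option linter.unusedVariables false

namespace Crest.Agent.PSD

/-- `n` lanes equal to `c` -/
def rep (W c : ℕ) : ℕ → ℕ
  | 0 => 0
  | n + 1 => c + 2 ^ W * rep W c n

theorem land_hi {W s n : ℕ} (hs : s ≤ W) (hn : n < 2 ^ W) : n &&& (2 ^ W - 2 ^ s) = 2 ^ s * (n / 2 ^ s) := by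
  have hp : 0 < 2 ^ s := by positivity
  have e : 2 ^ W = 2 ^ s * 2 ^ (W - s) := by rw [← pow_add]; congr 1; omega
  have e1 : 2 ^ W - 2 ^ s = 0 + 2 ^ s * (2 ^ (W - s) - 1) := by
    rw [Nat.mul_sub, ← e]; simp
  have h2 : n / 2 ^ s < 2 ^ (W - s) := by
    rw [Nat.div_lt_iff_lt_mul hp, Nat.mul_comm, ← e]; exact hn
  conv_lhs => rw [e1, ← Nat.mod_add_div n (2 ^ s)]
  rw [land_split (Nat.mod_lt _ hp) hp, Nat.and_two_pow_sub_one_eq_mod, Nat.mod_eq_of_lt h2]; simp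

theorem PK.hi {W B s : ℕ} (hs : s ≤ W) : ∀ (l : List ℤ) (X : ℕ), PK W (B * 2 ^ s) l X →
    ((Nat.land X (rep W (2 ^ W - 2 ^ s) l.length) : ℕ) : ℤ)
      = 2 ^ s * pz (2 ^ W) (l.map (fun a => a / 2 ^ s + (B : ℤ))) 0
  | [], X, _ => by
    have : Nat.land X (rep W (2 ^ W - 2 ^ s) ([] : List ℤ).length) = 0 := by show X &&& 0 = 0; simp
    rw [this]; simp [pz]
  | a :: l, X, hX => by
    have ih := PK.hi hs l (X / 2 ^ W) hX.2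
    have hp : 0 < 2 ^ W := by positivity
    have hps : 0 < 2 ^ s := by positivity
    have e : Nat.land X (rep W (2 ^ W - 2 ^ s) (a :: l).length)
        = (X % 2 ^ W &&& (2 ^ W - 2 ^ s)) + 2 ^ W * Nat.land (X / 2 ^ W) (rep W (2 ^ W - 2 ^ s) l.length) := by
      show X &&& _ = _ + 2 ^ W * (_ &&& _)
      rw [← land_split (Nat.mod_lt _ hp) (by omega), Nat.mod_add_div]; rfl
    rw [e, land_hi hs (Nat.mod_lt _ hp)]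
    have h1 := hX.1
    generalize X % 2 ^ W = n at h1
    have h2 : ((n / 2 ^ s : ℕ) : ℤ) = a / 2 ^ s + B := by
      push_cast at h1 ⊢
      rw [h1, Int.add_mul_ediv_right _ _ (by positivity)]
    rw [Nat.cast_add, Nat.cast_mul, Nat.cast_mul, ih, h2]
    simp only [List.map, pz]; push_cast; ring

theorem tr_bd {B s : ℕ} {a : ℤ} (h : |a| ≤ ((B : ℤ) - 6) * 2 ^ s) :
    |a / 2 ^ s| < B ∧ |a / 2 ^ s - 5| < B ∧ 5 ≤ a / 2 ^ s + B := by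
  have hp : (0 : ℤ) < 2 ^ s := by positivity
  have h1 := abs_le.1 h
  have l1 : -((B : ℤ) - 6) ≤ a / 2 ^ s := by
    rw [Int.le_ediv_iff_mul_le hp]; linarith [h1.1]
  have l2 : a / 2 ^ s ≤ (B : ℤ) - 6 := by
    rw [Int.ediv_le_iff_le_mul hp]; nlinarith [h1.2]
  refine ⟨abs_lt.2 ⟨by linarith, by linarith⟩, abs_lt.2 ⟨by linarith, by linarith⟩, by linarith⟩

theorem tr_err (s : ℕ) (a : ℤ) : |(a : ℝ) - 2 ^ s * ((a / 2 ^ s : ℤ) : ℝ)| ≤ 2 ^ s := by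
  have hp : (0 : ℤ) < 2 ^ s := by positivity
  have h1 := Int.emod_nonneg a hp.ne'
  have h2 := Int.emod_lt_of_pos a hp
  have h3 := Int.emod_add_mul_ediv a (2 ^ s)
  have e : (a : ℝ) - 2 ^ s * ((a / 2 ^ s : ℤ) : ℝ) = ((a % 2 ^ s : ℤ) : ℝ) := by
    have := congrArg (fun z : ℤ => (z : ℝ)) h3
    simp only [Int.cast_add, Int.cast_mul, Int.cast_pow, Int.cast_ofNat] at this
    linarith
  have g1 : (0 : ℝ) ≤ ((a % 2 ^ s : ℤ) : ℝ) := by exact_mod_cast h1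
  have g2 : ((a % 2 ^ s : ℤ) : ℝ) < 2 ^ s := by exact_mod_cast h2
  rw [e, abs_of_nonneg g1]; exact g2.le

theorem lane_ok2 {W B s : ℕ} (hB : 2 * (B * 2 ^ s) ≤ 2 ^ W) {a : ℤ} (h : |a| ≤ ((B : ℤ) - 6) * 2 ^ s) :
    0 ≤ a + ((B * 2 ^ s : ℕ) : ℤ) ∧ a + ((B * 2 ^ s : ℕ) : ℤ) < 2 ^ W := by
  refine lane_ok hB (lt_of_le_of_lt h ?_)
  have hp : (0 : ℤ) < 2 ^ s := by positivity
  push_cast; nlinarith

/-- truncate the lanes by `s` bits, subtract `5` on the diagonal, test -/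
noncomputable def pdT (W K sh B5 cX5 mR5 cR5 mC5 cC5 KK5 B4 cX4 mR4 cR4 mC4 cC4 KK4 B3 cX3 mR3 cR3 mC3 cC3 KK3 B2 s MT DT X : ℕ) : Bool :=
  @Nat.rec (fun _ => Bool) false (fun Y _ => pd5 W K sh B5 cX5 mR5 cR5 mC5 cC5 KK5 B4 cX4 mR4 cR4 mC4 cC4 KK4 B3 cX3 mR3 cR3 mC3 cC3 KK3 B2 Y)
    (Nat.succ (Nat.sub (Nat.shiftRight (Nat.land X MT) s) DT))

theorem pdT_pk {W K sh B5 cX5 mR5 cR5 mC5 cC5 KK5 B4 cX4 mR4 cR4 mC4 cC4 KK4 B3 cX3 mR3 cR3 mC3 cC3 KK3 B2 s MT DT X : ℕ} (c : PdC W K sh B5 cX5 mR5 cR5 mC5 cC5 KK5 B4 cX4 mR4 cR4 mC4 cC4 KK4 B3 cX3 mR3 cR3 mC3 cC3 KK3 B2)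
    (hB : 2 * (B5 * 2 ^ s) ≤ 2 ^ W) (hs : s ≤ W) (hMT : MT = rep W (2 ^ W - 2 ^ s) 25)
    (hDT : DT = 5 * onz W [true, false, false, false, false, false, true, false, false, false, false, false, true, false, false, false, false, false, true, false, false, false, false, false, true])
    {a11 a21 a22 a31 a32 a33 a41 a42 a43 a44 a51 a52 a53 a54 a55 : ℤ}
    (h11 : |a11| ≤ ((B5 : ℤ) - 6) * 2 ^ s) (h21 : |a21| ≤ ((B5 : ℤ) - 6) * 2 ^ s) (h22 : |a22| ≤ ((B5 : ℤ) - 6) * 2 ^ s) (h31 : |a31| ≤ ((B5 : ℤ) - 6) * 2 ^ s) (h32 : |a32| ≤ ((B5 : ℤ) - 6) * 2 ^ s) (h33 : |a33| ≤ ((B5 : ℤ) - 6) * 2 ^ s) (h41 : |a41| ≤ ((B5 : ℤ) - 6) * 2 ^ s) (h42 : |a42| ≤ ((B5 : ℤ) - 6) * 2 ^ s) (h43 : |a43| ≤ ((B5 : ℤ) - 6) * 2 ^ s) (h44 : |a44| ≤ ((B5 : ℤ) - 6) * 2 ^ s) (h51 : |a51| ≤ ((B5 : ℤ) - 6) * 2 ^ s) (h52 : |a52| ≤ ((B5 : ℤ) - 6) * 2 ^ s) (h53 :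 |a53| ≤ ((B5 : ℤ) - 6) * 2 ^ s) (h54 : |a54| ≤ ((B5 : ℤ) - 6) * 2 ^ s) (h55 : |a55| ≤ ((B5 : ℤ) - 6) * 2 ^ s)
    (hX : PK W (B5 * 2 ^ s) [a11, a21, a31, a41, a51, a21, a22, a32, a42, a52, a31, a32, a33, a43, a53, a41, a42, a43, a44, a54, a51, a52, a53, a54, a55] X)
    (h : pdT W K sh B5 cX5 mR5 cR5 mC5 cC5 KK5 B4 cX4 mR4 cR4 mC4 cC4 KK4 B3 cX3 mR3 cR3 mC3 cC3 KK3 B2 s MT DT X = true) (x1 x2 x3 x4 x5 : ℝ) :
    0 ≤ q5 a11 a21 a22 a31 a32 a33 a41 a42 a43 a44 a51 a52 a53 a54 a55 x1 x2 x3 x4 x5 := by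
  have h1 := PK.hi hs _ X hX
  have hl : ([a11, a21, a31, a41, a51, a21, a22, a32, a42, a52, a31, a32, a33, a43, a53, a41, a42, a43, a44, a54, a51, a52, a53, a54, a55] : List ℤ).length = 25 := rfl
  rw [hl, ← hMT] at h1
  have hps : (0 : ℤ) < 2 ^ s := by positivity
  have h2 : ((Nat.shiftRight (Nat.land X MT) s : ℕ) : ℤ)
      = pz (2 ^ W) (([a11, a21, a31, a41, a51, a21, a22, a32, a42, a52, a31, a32, a33, a43, a53, a41, a42, a43, a44, a54, a51, a52, a53, a54, a55] : List ℤ).map (fun a => a / 2 ^ s + (B5 : ℤ))) 0 := by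
    have : Nat.shiftRight (Nat.land X MT) s = Nat.land X MT / 2 ^ s := Nat.shiftRight_eq_div_pow _ _
    rw [this]; push_cast; rw [h1, Int.mul_ediv_cancel_left _ hps.ne']
  have hB' : 2 * B5 ≤ 2 ^ W := le_trans (Nat.mul_le_mul_left _ (Nat.le_mul_of_pos_right _ (by positivity))) hB
  have h3 : ((Nat.shiftRight (Nat.land X MT) s : ℕ) : ℤ) - DT
      = pz (2 ^ W) (([(a11 / 2 ^ s - 5), (a21 / 2 ^ s), (a31 / 2 ^ s), (a41 / 2 ^ s), (a51 / 2 ^ s), (a21 / 2 ^ s), (a22 / 2 ^ s - 5), (a32 / 2 ^ s), (a42 / 2 ^ s), (a52 / 2 ^ s), (a31 / 2 ^ s), (a32 / 2 ^ s), (a33 / 2 ^ s - 5), (a43 / 2 ^ s), (a53 / 2 ^ s), (a41 / 2 ^ s), (a42 / 2 ^ s), (a43 / 2 ^ s), (a44 / 2 ^ s - 5), (a54 / 2 ^ s), (a51 / 2 ^ s), (a52 / 2 ^ s), (a53 / 2 ^ s), (a54 / 2 ^ s), (a55 / 2 ^ s - 5)] : List ℤ).map (· + (B5 : ℤ))) 0 := by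
    rw [h2, hDT]
    simp only [onz, pz, List.map, if_true, Bool.false_eq_true, if_false]
    push_cast
    generalize (2 : ℤ) ^ W = y
    ring
  have hnn : ∀ (l : List ℤ), (∀ a ∈ l, 0 ≤ a + (B5 : ℤ)) → 0 ≤ pz (2 ^ W) (l.map (· + (B5 : ℤ))) 0 := by
    intro l
    induction l with
    | nil => intro _; simp [pz]
    | cons a l ih =>
      intro hh
      simp only [List.map, pz]
      have := hh a (by simp)
      have := ih (fun b hb => hh b (by simp [hb]))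
      positivity
  have h4 : (0 : ℤ) ≤ ((Nat.shiftRight (Nat.land X MT) s : ℕ) : ℤ) - DT := by
    rw [h3]; apply hnn
    simp only [List.forall_mem_cons, List.not_mem_nil, false_imp_iff, implies_true, and_true]
    exact ⟨(lane_ok hB' (tr_bd h11).2.1).1, (lane_ok hB' (tr_bd h21).1).1, (lane_ok hB' (tr_bd h31).1).1, (lane_ok hB' (tr_bd h41).1).1, (lane_ok hB' (tr_bd h51).1).1, (lane_ok hB' (tr_bd h21).1).1, (lane_ok hB' (tr_bd h22).2.1).1, (lane_ok hB' (tr_bd h32).1).1, (lane_ok hB' (tr_bd h42).1).1, (lane_ok hB' (tr_bd h52).1).1, (lane_ok hB' (tr_bd h31).1).1, (lane_ok hB' (tr_bd h32).1).1, (lane_ok hB' (tr_bd h33).2.1).1, (lane_ok hB' (tr_bd h43).1).1, (lane_ok hB' (tr_bd h53).1).1, (lane_ok hB' (tr_bd h41).1).1, (lane_ok hB' (tr_bd h42).1).1, (lane_ok hB' (tr_bd h43).1).1, (lane_ok hB' (tr_bd h44).2.1).1, (lane_ok hB'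 (tr_bd h54).1).1, (lane_ok hB' (tr_bd h51).1).1, (lane_ok hB' (tr_bd h52).1).1, (lane_ok hB' (tr_bd h53).1).1, (lane_ok hB' (tr_bd h54).1).1, (lane_ok hB' (tr_bd h55).2.1).1⟩
  have h5 : DT ≤ Nat.shiftRight (Nat.land X MT) s := by
    have : (DT : ℤ) ≤ ((Nat.shiftRight (Nat.land X MT) s : ℕ) : ℤ) := by linarith
    exact_mod_cast this
  have h6 : ((Nat.sub (Nat.shiftRight (Nat.land X MT) s) DT : ℕ) : ℤ)
      = ((Nat.shiftRight (Nat.land X MT) s : ℕ) : ℤ) - DT := Nat.cast_sub h5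
  have h7 := pd5_s c hB' (tr_bd h11).2.1 (tr_bd h21).1 (tr_bd h22).2.1 (tr_bd h31).1 (tr_bd h32).1 (tr_bd h33).2.1 (tr_bd h41).1 (tr_bd h42).1 (tr_bd h43).1 (tr_bd h44).2.1 (tr_bd h51).1 (tr_bd h52).1 (tr_bd h53).1 (tr_bd h54).1 (tr_bd h55).2.1
    (h6.trans h3) h x1 x2 x3 x4 x5
  have h8 := q5_rad (tr_err s a11) (tr_err s a21) (tr_err s a22) (tr_err s a31) (tr_err s a32) (tr_err s a33) (tr_err s a41) (tr_err s a42) (tr_err s a43) (tr_err s a44) (tr_err s a51) (tr_err s a52) (tr_err s a53) (tr_err s a54) (tr_err s a55) x1 x2 x3 x4 x5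
  have h9 := mul_nonneg (show (0 : ℝ) ≤ 2 ^ s by positivity) h7
  simp only [Int.cast_sub, Int.cast_ofNat] at h9
  unfold q5 at h8 h9 ⊢
  linarith

theorem pdT_s {W K sh B5 cX5 mR5 cR5 mC5 cC5 KK5 B4 cX4 mR4 cR4 mC4 cC4 KK4 B3 cX3 mR3 cR3 mC3 cC3 KK3 B2 s MT DT X : ℕ} (c : PdC W K sh B5 cX5 mR5 cR5 mC5 cC5 KK5 B4 cX4 mR4 cR4 mC4 cC4 KK4 B3 cX3 mR3 cR3 mC3 cC3 KK3 B2)
    (hB : 2 * (B5 * 2 ^ s) ≤ 2 ^ W) (hs : s ≤ W) (hMT : MT = rep W (2 ^ W - 2 ^ s) 25)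
    (hDT : DT = 5 * onz W [true, false, false, false, false, false, true, false, false, false, false, false, true, false, false, false, false, false, true, false, false, false, false, false, true])
    {a11 a21 a22 a31 a32 a33 a41 a42 a43 a44 a51 a52 a53 a54 a55 j : ℤ}
    (h11 : |a11| ≤ ((B5 : ℤ) - 6) * 2 ^ s) (h21 : |a21| ≤ ((B5 : ℤ) - 6) * 2 ^ s) (h22 : |a22| ≤ ((B5 : ℤ) - 6) * 2 ^ s) (h31 : |a31| ≤ ((B5 : ℤ) - 6) * 2 ^ s) (h32 : |a32| ≤ ((B5 : ℤ) - 6) * 2 ^ s) (h33 : |a33| ≤ ((B5 : ℤ) - 6) * 2 ^ s) (h41 : |a41| ≤ ((B5 : ℤ) - 6) * 2 ^ s) (h42 : |a42| ≤ ((B5 : ℤ) - 6) * 2 ^ s) (h43 : |a43| ≤ ((B5 : ℤ) - 6) * 2 ^ s) (h44 : |a44| ≤ ((B5 : ℤ) - 6) * 2 ^ s) (h51 : |a51| ≤ ((B5 : ℤ) - 6) * 2 ^ s) (h52 : |a52| ≤ ((B5 : ℤ) - 6) * 2 ^ s) (h53 : |a53| ≤ ((B5 : ℤ) - 6) * 2 ^ s) (h54 : |a54| ≤ ((B5 : ℤ) - 6) * 2 ^ s) (h55 : |a55|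 ≤ ((B5 : ℤ) - 6) * 2 ^ s)
    (hX : (X : ℤ) = pz (2 ^ W) ([a11, a21, a31, a41, a51, a21, a22, a32, a42, a52, a31, a32, a33, a43, a53, a41, a42, a43, a44, a54, a51, a52, a53, a54, a55].map (· + ((B5 * 2 ^ s : ℕ) : ℤ))) j)
    (h : pdT W K sh B5 cX5 mR5 cR5 mC5 cC5 KK5 B4 cX4 mR4 cR4 mC4 cC4 KK4 B3 cX3 mR3 cR3 mC3 cC3 KK3 B2 s MT DT X = true) (x1 x2 x3 x4 x5 : ℝ) :
    0 ≤ q5 a11 a21 a22 a31 a32 a33 a41 a42 a43 a44 a51 a52 a53 a54 a55 x1 x2 x3 x4 x5 := by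
  refine pdT_pk c hB hs hMT hDT h11 h21 h22 h31 h32 h33 h41 h42 h43 h44 h51 h52 h53 h54 h55 (PK.of_eq _ _ j ?_ hX) h x1 x2 x3 x4 x5
  simp only [List.forall_mem_cons, List.not_mem_nil, false_imp_iff, implies_true, and_true]
  exact ⟨lane_ok2 hB h11, lane_ok2 hB h21, lane_ok2 hB h31, lane_ok2 hB h41, lane_ok2 hB h51, lane_ok2 hB h21, lane_ok2 hB h22, lane_ok2 hB h32, lane_ok2 hB h42, lane_ok2 hB h52, lane_ok2 hB h31, lane_ok2 hB h32, lane_ok2 hB h33, lane_ok2 hB h43, lane_ok2 hB h53, lane_ok2 hB h41, lane_ok2 hB h42, lane_ok2 hB h43, lane_ok2 hB h44, lane_ok2 hB h54, lane_ok2 hB h51, lane_ok2 hB h52, lane_ok2 hB h53, lane_ok2 hB h54, lane_ok2 hB h55⟩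

end Crest.Agent.PSD
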